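import Vale.Agent.P144U.ThP.Osc
import Vale.Agent.P144D.B.FH

/-!
Pairs with several boundary values: the increments are bounded by the mass, with a gain when the
present edges are rare.
-/

namespace Vale.Agent.P144Z

open Finset

namespace ThP

open FH (eta rev rev_rev eta_zero eta_one eta_lip edge zd_step st4_back mem_box card_box tc_nonneg)

variable {ρ r : ℕ} {u w : ℤ × ℤ → ℝ} {pr : ℤ × ℤ → Fin 4 → Prop} {out : ℤ × ℤ → Prop}

open Classical in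
/-- The increments along the present edges. -/
noncomputable def DD (u : ℤ × ℤ → ℝ) (pr : ℤ × ℤ → Fin 4 → Prop) (e : (ℤ × ℤ) × Fin 4) : ℝ :=
  if pr e.1 e.2 then u (e.1 + st4 e.2) - u e.1 else 0

theorem GM_nonpos (h : IsPairM ρ u w pr out) {v : ℤ × ℤ} (hv : zd v 0 ≤ ρ) {a : Fin 4}
    (ha : ¬ pr v a) : GM u w pr v a ≤ 0 := by
  rw [GM, if_neg ha]
  nlinarith [tc_nonneg, h.le v a hv]

theorem GM_le (h : IsPairM ρ u w pr out) {v : ℤ × ℤ} (hv : zd v 0 + 1 ≤ ρ) :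
    ∑ a, |GM u w pr v a| ≤ 2 * ∑ a, |DD u pr (v, a)| := by
  have h1 : ∑ a, |GM u w pr v a| ≤ ∑ a, (2 * |DD u pr (v, a)| - GM u w pr v a) :=
    sum_le_sum fun a _ => by
      by_cases ha : pr v a
      · simp only [GM, DD, if_pos ha]
        linarith [neg_abs_le (-(u (v + st4 a) - u v)), abs_neg (u (v + st4 a) - u v)]
      · rw [abs_of_nonpos (GM_nonpos h (by omega) ha)]
        linarith [abs_nonneg (DD u pr (v, a))]
  rw [sum_sub_distrib, ← mul_sum] at h1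
  linarith [h.sub v hv]

/-- The energy estimate. -/
theorem energy (h : IsPairM ρ u w pr out) (hr : 1 ≤ r) (hρ : 2 * r + 1 ≤ ρ) {m S : ℝ}
    (hS : ∀ v, zd v 0 ≤ 2 * r + 1 → |u v - m| ≤ S) (T : Finset (ℤ × ℤ))
    (hT : ∀ v a, zd v 0 ≤ ρ → pr v a → v ∈ T) :
    ∑ e ∈ (Finset.Icc (-((2 * r : ℕ) : ℤ)) (2 * r : ℕ) ×ˢ
      Finset.Icc (-((2 * r : ℕ) : ℤ)) (2 * r : ℕ)) ×ˢ univ, eta r e.1 ^ 2 * DD u pr e ^ 2 / 8 ≤
      4 * S ^ 2 * (1 / r) ^ 2 * (4 * T.card) := by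
  classical
  let ind : ℤ × ℤ → ℝ := fun x => if x ∈ T then 1 else 0
  set B := Finset.Icc (-((2 * r : ℕ) : ℤ)) (2 * r : ℕ) ×ˢ
    Finset.Icc (-((2 * r : ℕ) : ℤ)) (2 * r : ℕ) with hB
  have hm : ∀ x, x ∈ B ↔ zd x 0 ≤ 2 * r := fun x => mem_box
  let g : ℤ × ℤ → ℝ := fun x => eta r x ^ 2 * (u x - m + S)
  let E : (ℤ × ℤ) × Fin 4 → ℝ := fun e =>
    if pr e.1 e.2 then g e.1 * (u (e.1 + st4 e.2) - u e.1) else 0
  have hg : ∀ x ∈ B, 0 ≤ g x := fun x hx => mul_nonneg (sq_nonneg _)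
    (by linarith [(abs_le.1 (hS x (((hm x).1 hx).trans (Nat.le_succ _)))).1])
  have hE : ∀ e, E e ≠ 0 → zd e.1 0 < 2 * r := fun e he => by
    by_contra h1
    exact he (by simp only [E, g, eta_zero (not_lt.1 h1)]; simp)
  have h1 : ∑ e ∈ B ×ˢ univ, E (rev e) = ∑ e ∈ B ×ˢ univ, E e := by
    rw [← finsum_eq_sum_of_support_subset (fun e => E (rev e)),
      ← finsum_eq_sum_of_support_subset E]
    · exact finsum_comp_equiv rev_rev.toPerm
    · intro e he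
      exact mem_coe.2 (mem_product.2 ⟨(hm _).2 (hE e he).le, mem_univ _⟩)
    · intro e he
      exact mem_coe.2 (mem_product.2
        ⟨(hm _).2 ((zd_step e.1 e.2).2.trans (hE _ he)), mem_univ _⟩)
  have h2 : 0 ≤ ∑ e ∈ B ×ˢ univ, g e.1 * GM u w pr e.1 e.2 := by
    rw [sum_product]
    refine sum_nonneg fun x hx => ?_
    have h3 := (hm x).1 hx
    simp only [← mul_sum]
    exact mul_nonneg (hg x hx) (h.sub x (by omega))
  have h3 : ∀ e ∈ B ×ˢ (univ : Finset (Fin 4)), eta r e.1 ^ 2 * DD u pr e ^ 2 / 8 ≤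
      4 * S ^ 2 * (1 / r) ^ 2 * ind e.1 - g e.1 * GM u w pr e.1 e.2 + (E e - E (rev e)) / 2 := by
    rintro ⟨x, a⟩ he
    have h4 := (hm x).1 (mem_product.1 he).1
    by_cases hp : pr x a
    · have h5 := edge (eta_lip hr x a) (hS x (by omega))
        (hS (x + st4 a) ((zd_step x a).1.trans (by omega)))
      simp only [DD, GM, E, g, ind, rev, if_pos hp, if_pos ((h.symm x a).2 hp), st4_back,
        if_pos (hT x a (by omega) hp)]
      linarith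
    · have h5 := mul_nonpos_of_nonneg_of_nonpos (hg x (mem_product.1 he).1)
        (GM_nonpos h (by omega) hp)
      have h6 : (0 : ℝ) ≤ 4 * S ^ 2 * (1 / r) ^ 2 * ind x := by
        simp only [ind]
        split_ifs <;> positivity
      simp only [DD, E, rev, if_neg hp, if_neg (mt (h.symm x a).1 hp)]
      linarith
  refine (sum_le_sum h3).trans ?_
  rw [sum_add_distrib, sum_sub_distrib, ← sum_div, sum_sub_distrib, h1, sub_self, zero_div,
    add_zero, ← mul_sum]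
  have h4 : ∑ e ∈ B ×ˢ (univ : Finset (Fin 4)), ind e.1 ≤ 4 * T.card := by
    rw [sum_product' (f := fun x (_ : Fin 4) => ind x)]
    simp only [sum_const, card_univ, Fintype.card_fin, nsmul_eq_mul]
    rw [← mul_sum, sum_boole]
    exact mul_le_mul_of_nonneg_left (Nat.cast_le.2 (card_le_card
      fun x hx => (mem_filter.1 hx).2)) (Nat.cast_nonneg _)
  linarith [mul_le_mul_of_nonneg_left h4 (by positivity : (0 : ℝ) ≤ 4 * S ^ 2 * (1 / r) ^ 2)]

theorem core {s : ℕ} {θ A : ℝ} (h : IsPairM ρ u w pr out) (hs : 1 ≤ s) (hρ : 16 * (s + 1) ≤ ρ)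
    (hθ : 0 ≤ θ) {T : Finset (ℤ × ℤ)} (hc : (T.card : ℝ) ≤ θ ^ 2 * (ρ : ℝ) ^ 2)
    (hT : ∀ v a, zd v 0 ≤ ρ → pr v a → v ∈ T)
    (hA : ∑ x ∈ Icc (-(ρ : ℤ)) ρ ×ˢ Icc (-(ρ : ℤ)) ρ, ∑ k, (u x - w (x - cn k)) ≤ A) :
    (∑ x ∈ Icc (-(s : ℤ)) s ×ˢ Icc (-(s : ℤ)) s, ∑ a, |GM u w pr x a|) * ρ ≤
      23040 * θ * s * A := by
  obtain ⟨m, S, hS0, hSA, hS⟩ := osc h hA
  obtain ⟨r, hr⟩ : ∃ r, r = ρ / 8 := ⟨_, rfl⟩
  have r0 : (0 : ℝ) < r := by exact_mod_cast (by omega : 0 < r)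
  have r1 : (ρ : ℝ) ≤ 16 * r := by exact_mod_cast (by omega : ρ ≤ 16 * r)
  have s1 : (1 : ℝ) ≤ s := by exact_mod_cast hs
  have h1 := energy h (r := r) (by omega) (by omega) (fun v hv => hS v (by omega)) T hT
  have h2 : ∑ e ∈ (Icc (-(s : ℤ)) s ×ˢ Icc (-(s : ℤ)) s) ×ˢ (univ : Finset (Fin 4)),
      |DD u pr e| ^ 2 / 8 ≤ _ := le_trans (le_trans (sum_le_sum fun e he => by
        rw [FH.eta_one (by omega) ((FH.mem_box.1 (mem_product.1 he).1).trans (by omega : s ≤ r)),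
          one_pow, one_mul, sq_abs])
      (sum_le_sum_of_subset_of_nonneg (product_subset_product_left fun x hx =>
        FH.mem_box.2 ((FH.mem_box.1 hx).trans (by omega : s ≤ 2 * r)))
        fun e _ _ => by positivity)) h1
  have h3 : (1 / (r : ℝ)) ^ 2 * (ρ : ℝ) ^ 2 ≤ 16 ^ 2 := by
    rw [← mul_pow]
    refine pow_le_pow_left₀ (by positivity) ?_ 2
    rw [one_div, inv_mul_le_iff₀ r0]
    linarith
  have h4 := mul_le_mul_of_nonneg_left hc (by positivity : (0 : ℝ) ≤ 16 * S ^ 2 * (1 / r) ^ 2)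
  have h5 := mul_le_mul_of_nonneg_left h3 (by positivity : (0 : ℝ) ≤ 16 * S ^ 2 * θ ^ 2)
  rw [← sum_div] at h2
  have h6 := sq_sum_le_card_mul_sum_sq (f := fun e => |DD u pr e|)
    (s := (Icc (-(s : ℤ)) s ×ˢ Icc (-(s : ℤ)) s) ×ˢ (univ : Finset (Fin 4)))
  rw [card_product, Nat.cast_mul, FH.card_box, card_univ, Fintype.card_fin] at h6
  have h7 := h6.trans (mul_le_mul (b := 36 * (s : ℝ) ^ 2) (d := 32768 * S ^ 2 * θ ^ 2)
    (by push_cast; nlinarith) (by linarith) (sum_nonneg fun _ _ => sq_nonneg _) (by positivity))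
  have h8 : ∑ e ∈ (Icc (-(s : ℤ)) s ×ˢ Icc (-(s : ℤ)) s) ×ˢ (univ : Finset (Fin 4)),
      |DD u pr e| ≤ 1152 * s * S * θ := by
    refine le_of_pow_le_pow_left₀ two_ne_zero (by positivity) (h7.trans ?_)
    nlinarith [sq_nonneg (s * S * θ)]
  have h9 : ∑ x ∈ Icc (-(s : ℤ)) s ×ˢ Icc (-(s : ℤ)) s, ∑ a, |GM u w pr x a| ≤
      2 * (1152 * s * S * θ) := by
    refine (sum_le_sum fun x hx => GM_le h (by have := FH.mem_box.1 hx; omega)).trans ?_
    rw [← mul_sum, ← sum_product' (f := fun x a => |DD u pr (x, a)|)]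
    linarith
  refine (mul_le_mul_of_nonneg_right h9 (Nat.cast_nonneg ρ)).trans ?_
  have h10 := mul_le_mul_of_nonneg_left hSA (by positivity : (0 : ℝ) ≤ 2304 * s * θ)
  linarith

end ThP

open Classical in
theorem thinP : ThinP :=
  ⟨23040, by norm_num, fun _ _ _ _ _ _ _ _ h hs hρ hθ hc hA => ThP.core h hs hρ hθ hc
    (fun _ a hv ha => mem_filter.2 ⟨FH.mem_box.2 hv, a, ha⟩) hA⟩

end Vale.Agent.P144Z
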