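import Vale.Agent.P144U.Defs
import Vale.Agent.P144D.B.Sup

/-!
Pairs with several boundary values: the oscillation is bounded by the mass.
-/

namespace Vale.Agent.P144Z

open Finset

namespace ThP

open B1a1 (ms mc walk mem_box sub_cn_zero zd_corner four_zero tc_pos')

variable {ρ : ℕ} {u w : ℤ × ℤ → ℝ} {pr : ℤ × ℤ → Fin 4 → Prop} {out : ℤ × ℤ → Prop}

theorem ms_nonneg (h : IsPairM ρ u w pr out) {x : ℤ × ℤ} (hx : zd x 0 ≤ ρ) : 0 ≤ ms u w x :=
  Finset.sum_nonneg fun k _ => sub_nonneg.2 (h.le x k hx)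

theorem le_ms (h : IsPairM ρ u w pr out) {x : ℤ × ℤ} (hx : zd x 0 ≤ ρ) (k : Fin 4) :
    u x - w (x - cn k) ≤ ms u w x :=
  Finset.single_le_sum (f := fun k => u x - w (x - cn k))
    (fun k _ => sub_nonneg.2 (h.le x k hx)) (Finset.mem_univ k)

theorem step (h : IsPairM ρ u w pr out) {x y : ℤ × ℤ} (hx : zd x 0 ≤ ρ) (hy : zd y 0 ≤ ρ)
    {k : Fin 4} (hk : y - cn k = x) : |u y - u x| ≤ ms u w x + ms u w y := by
  have h1 := h.le x 0 hx
  have h2 := le_ms h hx 0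
  have h3 := h.le y k hy
  have h4 := le_ms h hy k
  rw [sub_cn_zero] at h1 h2
  rw [hk] at h3 h4
  rw [abs_le]
  constructor <;> linarith

theorem mc_nonneg (h : IsPairM ρ u w pr out) (s : ℕ) : 0 ≤ mc u w ρ s :=
  Finset.sum_nonneg fun _ hx => ms_nonneg h (mem_box.1 (Finset.mem_filter.1 hx).1)

theorem ms_le (h : IsPairM ρ u w pr out) {s : ℕ} (hs : s ≤ ρ) {x : ℤ × ℤ} (hx : zd x 0 = s) :
    ms u w x ≤ mc u w ρ s :=
  Finset.single_le_sum (f := ms u w)
    (fun _ hx => ms_nonneg h (mem_box.1 (Finset.mem_filter.1 hx).1))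
    (Finset.mem_filter.2 ⟨mem_box.2 (hx.trans_le hs), hx⟩)

theorem side (h : IsPairM ρ u w pr out) {s : ℕ} (hs : s ≤ ρ) (p : ℕ → ℤ × ℤ)
    (hp : Function.Injective p) (k : Fin 4) (hk : ∀ t, p (t + 1) - cn k = p t) (n : ℕ)
    (hn : ∀ t, t ≤ n → zd (p t) 0 = s) : |u (p n) - u (p 0)| ≤ 2 * mc u w ρ s := by
  have h1 := walk (fun t => u (p t)) (fun t => ms u w (p t)) n
    (ms_nonneg h ((hn 0 n.zero_le).trans_le hs)) fun t ht =>
      step h ((hn t ht.le).trans_le hs) ((hn _ ht).trans_le hs) (hk t)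
  have h2 : ∑ t ∈ range (n + 1), ms u w (p t) ≤ mc u w ρ s := by
    rw [← Finset.sum_image (f := ms u w) fun _ _ _ _ h3 => hp h3]
    refine Finset.sum_le_sum_of_subset_of_nonneg (fun x hx => ?_)
      fun _ hx _ => ms_nonneg h (mem_box.1 (Finset.mem_filter.1 hx).1)
    obtain ⟨t, ht, rfl⟩ := Finset.mem_image.1 hx
    have h3 := hn t (Nat.lt_succ_iff.1 (Finset.mem_range.1 ht))
    exact Finset.mem_filter.2 ⟨mem_box.2 (h3.trans_le hs), h3⟩
  have h3 := ms_nonneg h ((hn n le_rfl).trans_le hs)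
  linarith

theorem side_h (h : IsPairM ρ u w pr out) {s : ℕ} (hs : s ≤ ρ) {a b : ℤ} (ha : -(s : ℤ) ≤ a)
    (ha' : a ≤ s) (hb : b = s ∨ b = -s) : |u (a, b) - u (-s, b)| ≤ 2 * mc u w ρ s := by
  have h1 := side h hs (fun t => (-s + t, b)) (fun t t' h1 => by
    have h2 : -(s : ℤ) + t = -s + t' := congrArg Prod.fst h1
    omega) 1 (fun t => Prod.ext (by simp [cn]; ring) (by simp [cn])) (a + s).toNat fun t ht => by
      simp only [zd, Prod.fst_zero, Prod.snd_zero, sub_zero]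
      omega
  have h2 : -(s : ℤ) + ((a + s).toNat : ℤ) = a := by omega
  simpa only [h2, Nat.cast_zero, add_zero] using h1

theorem side_v (h : IsPairM ρ u w pr out) {s : ℕ} (hs : s ≤ ρ) {a b : ℤ} (hb : -(s : ℤ) ≤ b)
    (hb' : b ≤ s) (ha : a = s ∨ a = -s) : |u (a, b) - u (a, -s)| ≤ 2 * mc u w ρ s := by
  have h1 := side h hs (fun t => (a, -s + t)) (fun t t' h1 => by
    have h2 : -(s : ℤ) + t = -s + t' := congrArg Prod.snd h1
    omega) 3 (fun t => Prod.ext (by simp [cn]) (by simp [cn]; ring)) (b + s).toNat fun t ht => by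
      simp only [zd, Prod.fst_zero, Prod.snd_zero, sub_zero]
      omega
  have h2 : -(s : ℤ) + ((b + s).toNat : ℤ) = b := by omega
  simpa only [h2, Nat.cast_zero, add_zero] using h1

theorem contour (h : IsPairM ρ u w pr out) {s : ℕ} (hs : s ≤ ρ) {x : ℤ × ℤ} (hx : zd x 0 = s) :
    |u x - u (-s, -s)| ≤ 4 * mc u w ρ s := by
  obtain ⟨a, b⟩ := x
  simp only [zd, Prod.fst_zero, Prod.snd_zero, sub_zero] at hx
  by_cases ha : a = s ∨ a = -s
  · have h1 := side_v h hs (a := a) (b := b) (by omega) (by omega) ha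
    have h2 := side_h h hs (a := a) (b := -s) (by omega) (by omega) (Or.inr rfl)
    linarith [abs_sub_le (u (a, b)) (u (a, -s)) (u (-s, -s))]
  · have h1 := side_h h hs (a := a) (b := b) (by omega) (by omega) (by omega)
    have h2 := side_v h hs (a := -s) (b := b) (by omega) (by omega) (Or.inr rfl)
    linarith [abs_sub_le (u (a, b)) (u (-s, b)) (u (-s, -s))]

theorem max_u (h : IsPairM ρ u w pr out) {s : ℕ} (hs : s ≤ ρ) {b : ℝ}
    (hb : ∀ v, zd v 0 = s → u v ≤ b) : ∀ v, zd v 0 ≤ s → u v ≤ b := by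
  intro v hv
  refine sub_nonpos.1 (maxp_box s (fun v => u v - b) (fun y hy => sub_nonpos.2 (hb y hy))
    (fun y hy h1 h2 => ?_) v hv)
  have h3 : ∀ a, ¬ pr y a → -(2 * tc) * (u y - w (y - cn a)) < 0 := fun a ha => by
    obtain ⟨x, hx, e⟩ := h.esc s hs _ ((zd_corner y a).trans hy) (h.rem y a ha).2
    have h4 := h.le x 0 (hx.trans_le hs)
    rw [sub_cn_zero] at h4
    have h5 : 0 < u y - w (y - cn a) := by linarith [hb x hx]
    nlinarith [tc_pos']
  have h4 := four_zero (g := GM u w pr y) (fun a => by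
    unfold GM
    split_ifs with ha
    · linarith [h2 a]
    · exact (h3 a ha).le) (h.sub y (hy.trans hs)) 0
  unfold GM at h4
  split_ifs at h4 with ha
  · linarith
  · exact absurd h4 (h3 0 ha).ne

theorem min_w (h : IsPairM ρ u w pr out) {s : ℕ} (hs : s ≤ ρ) {b : ℝ}
    (hb : ∀ v, zd v 0 = s → b ≤ w v) : ∀ v, zd v 0 ≤ s → b ≤ w v := by
  intro v hv
  refine sub_nonpos.1 (maxp_box s (fun v => b - w v) (fun y hy => sub_nonpos.2 (hb y hy))
    (fun y hy h1 h2 => ?_) v hv)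
  have h3 : ¬ out y := fun h3 => by
    obtain ⟨x, hx, e⟩ := h.esc s hs y (by omega) h3
    linarith [hb x hx]
  have h4 := four_zero (g := fun a => -(w (y + st4 a) - w y)) (fun a => by linarith [h2 a])
    (by
      rw [Finset.sum_neg_distrib]
      linarith [h.sup y (hy.trans hs) h3]) 0
  linarith

theorem bound (h : IsPairM ρ u w pr out) {s : ℕ} (hs : s ≤ ρ) {v : ℤ × ℤ} (hv : zd v 0 ≤ s) :
    |u v - u (-s, -s)| ≤ 5 * mc u w ρ s := by
  have h0 := mc_nonneg h s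
  have h5 := max_u h hs (b := u (-s, -s) + 5 * mc u w ρ s) (fun y hy => by
    linarith [(abs_le.1 (contour h hs hy)).2]) v hv
  have h6 := min_w h hs (b := u (-s, -s) - 5 * mc u w ρ s) (fun y hy => by
    have h7 := (le_ms h (hy.trans_le hs) 0).trans (ms_le h hs hy)
    rw [sub_cn_zero] at h7
    linarith [(abs_le.1 (contour h hs hy)).1]) v hv
  have h7 := h.le v 0 (hv.trans hs)
  rw [sub_cn_zero] at h7
  exact abs_le.2 ⟨by linarith, by linarith⟩

/-- The oscillation is bounded by the mass. -/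
theorem osc (h : IsPairM ρ u w pr out) {A : ℝ}
    (hA : ∑ x ∈ Icc (-(ρ : ℤ)) ρ ×ˢ Icc (-(ρ : ℤ)) ρ, ∑ k, (u x - w (x - cn k)) ≤ A) :
    ∃ m S : ℝ, 0 ≤ S ∧ S * ρ ≤ 10 * A ∧ ∀ v, 2 * zd v 0 ≤ ρ → |u v - m| ≤ S := by
  have h1 : ∑ s ∈ Finset.Icc ((ρ + 1) / 2) ρ, mc u w ρ s ≤ A :=
    (Finset.sum_fiberwise_le_sum_of_sum_fiber_nonneg fun s _ => mc_nonneg h s).trans hA
  have h0 : 0 ≤ A := (Finset.sum_nonneg fun s _ => mc_nonneg h s).trans h1
  obtain ⟨s, hs, h2⟩ := Finset.exists_le_of_sum_le (s := Finset.Icc ((ρ + 1) / 2) ρ)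
    (f := fun s => mc u w ρ s * ρ) (g := fun _ => 2 * A) (Finset.nonempty_Icc.2 (by omega)) (by
      rw [← Finset.sum_mul, Finset.sum_const, Nat.card_Icc, nsmul_eq_mul]
      have h3 : ρ ≤ 2 * (ρ + 1 - (ρ + 1) / 2) := by omega
      have h4 : (ρ : ℝ) ≤ 2 * ((ρ + 1 - (ρ + 1) / 2 : ℕ) : ℝ) := by exact_mod_cast h3
      have h5 := mul_le_mul_of_nonneg_right h1 (Nat.cast_nonneg (α := ℝ) ρ)
      nlinarith)
  obtain ⟨h3, h4⟩ := Finset.mem_Icc.1 hs
  exact ⟨_, 5 * mc u w ρ s, by linarith [mc_nonneg h s], by linarith,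
    fun v hv => bound h h4 (by omega)⟩

end ThP

end Vale.Agent.P144Z
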